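import Vale.Agent.P157.Ising.Defs
import Vale.Agent.P157.Formula.Opt
import Vale.Agent.P157.Hybrid

/-!
P157, Ising cube: the plain recursions agree with the cascade functionals.
-/

open MeasureTheory ProbabilityTheory

namespace Vale.Agent.P157.Ising

theorem grec_eq : ∀ (K : ℕ) (m d : Fin K → ℝ), (∀ l, m l ≠ 0) → ∀ F : ℝ → ℝ,
    grec K m d F = Formula.nest K m d F
  | 0, m, d, _, F => funext fun x => by simp [grec, Formula.nest, Casc.casc]
  | K + 1, m, d, hm, F => by
    rw [Formula.nest_succ m d (hm 0), grec, grec_eq K _ _ (fun l => hm _) F]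
    funext x
    simp only [gstep, Formula.step, if_neg (hm 0)]
    rfl

theorem along_eq {K : ℕ} (F : ℝ → ℝ) (v : Fin (K + 1) → ℝ) : along F v = Casc.psiF F v := by
  rw [Formula.psiF_eq_nest]
  simp only [along, Formula.heat, zero_add]
  rw [grec_eq K _ _ fun l => by positivity]
  rfl

theorem functional_eq {K : ℕ} (α : ℝ) (f : ℝ → ℝ) (p q : Fin (K + 1) → ℝ) :
    functional α f p q = Casc.pfun Casc.psiI α f p q := by
  have h : along (fun x => Real.log (Real.cosh x)) p - p (Fin.last K) / 2 = Casc.psiI p := by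
    rw [along_eq]; rfl
  rw [functional, h]
  simp only [Casc.pfun, along_eq, Casc.pi0]
  field_simp

theorem value_eq (K : ℕ) (α : ℝ) (f : ℝ → ℝ) : value K α f = Casc.val K α f := by
  simp only [value, Casc.val, Casc.pathsQ, functional_eq]

theorem expectedPressure_eq (f : ℝ → ℝ) (α : ℝ) (N : ℕ) :
    expectedPressure f α N = press f N ⌊α * N⌋₊ / N := by
  rfl

end Vale.Agent.P157.Ising
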