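import Mathlib

/-!
P157, Ising cube: the expected pressure and the variational formula, written with one-dimensional
Gaussian recursions only.
-/

open MeasureTheory ProbabilityTheory

namespace Vale.Agent.P157.Ising

/-- Sign of a coordinate of the cube. -/
def spin (b : Bool) : ℝ := if b then 1 else -1

/-- `E p_N(f)` on the Ising cube with `⌊α N⌋` standard Gaussian patterns. -/
noncomputable def expectedPressure (f : ℝ → ℝ) (α : ℝ) (N : ℕ) : ℝ :=
  (∫ g, Real.log (((2 : ℝ) ^ N)⁻¹ * ∑ σ : Fin N → Bool,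
      Real.exp (∑ a, f ((∑ i, g a i * spin (σ i)) / √(N : ℝ))))
    ∂Measure.pi fun _ : Fin ⌊α * N⌋₊ => Measure.pi fun _ : Fin N => gaussianReal 0 1) / N

/-- One step: `m⁻¹ log E exp (m F (x + √s g))` for a standard Gaussian `g`. -/
noncomputable def gstep (m s : ℝ) (F : ℝ → ℝ) (x : ℝ) : ℝ :=
  m⁻¹ * Real.log (∫ g, Real.exp (m * F (x + √s * g)) ∂gaussianReal 0 1)

/-- The recursion: the steps with parameters `m` and variances `d`, the last one innermost. -/
noncomputable def grec : (K : ℕ) → (Fin K → ℝ) → (Fin K → ℝ) → (ℝ → ℝ) → ℝ → ℝ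
  | 0, _, _, F => F
  | K + 1, m, d, F => gstep (m 0) (d 0) (grec K (fun l => m l.succ) (fun l => d l.succ) F)

/-- The recursion along a path `v`, with parameters `(l + 1) / (K + 1)` and variances the
increments of `v`, started at a centred Gaussian of variance `v 0`. -/
noncomputable def along {K : ℕ} (F : ℝ → ℝ) (v : Fin (K + 1) → ℝ) : ℝ :=
  ∫ z, grec K (fun l => ((l : ℕ) + 1) / ((K : ℝ) + 1)) (fun l => v l.succ - v l.castSucc) F
    (√(v 0) * z) ∂gaussianReal 0 1

/-- The functional of a spin path `p` and an overlap path `q`. -/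
noncomputable def functional {K : ℕ} (α : ℝ) (f : ℝ → ℝ) (p q : Fin (K + 1) → ℝ) : ℝ :=
  along (fun x => Real.log (Real.cosh x)) p - p (Fin.last K) / 2 + α * along f q
    + (∑ l, p l * q l) / (2 * ((K : ℝ) + 1))

/-- The value at `K + 1` levels: infimum over overlap paths from `[0, 1]` ending at `1` of the
supremum over nonnegative nondecreasing spin paths. -/
noncomputable def value (K : ℕ) (α : ℝ) (f : ℝ → ℝ) : EReal :=
  ⨅ q ∈ {q : Fin (K + 1) → ℝ | Monotone q ∧ 0 ≤ q 0 ∧ q (Fin.last K) = 1},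
    ⨆ p ∈ {p : Fin (K + 1) → ℝ | Monotone p ∧ 0 ≤ p 0}, ((functional α f p q : ℝ) : EReal)

end Vale.Agent.P157.Ising
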