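import Vale.Agent.P157.Ising.Refine
import Vale.Agent.P157.Ising.Bridge
import Vale.Agent.P157.Formula.Single
import Vale.Agent.P157.Formula.Borel

/-!
P157, Ising cube: the limit of the values is the infimum over step overlap paths of the supremum
over step spin paths on all finer grids.
-/

open MeasureTheory ProbabilityTheory Filter Topology Finset

namespace Vale.Agent.P157.Ising

open Formula (gm mixQ)

/-- The steps listed in `l`, the last one innermost. -/
noncomputable def fold (m d : ℕ → ℝ) (F : ℝ → ℝ) (l : List ℕ) : ℝ → ℝ :=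
  l.foldr (fun i G => gstep (m i) (d i) G) F

theorem grec_eq_fold : ∀ (K : ℕ) (m d : ℕ → ℝ) (F : ℝ → ℝ),
    grec K (fun i => m i) (fun i => d i) F = fold m d F (List.range K)
  | 0, _, _, _ => rfl
  | K + 1, m, d, F => by
    show gstep (m 0) (d 0) (grec K (fun i => m (i + 1)) (fun i => d (i + 1)) F) = _
    rw [grec_eq_fold K (fun i => m (i + 1)) (fun i => d (i + 1)), List.range_succ_eq_map]
    simp [fold, List.foldr_map]

theorem fold_zero {m d : ℕ → ℝ} (F : ℝ → ℝ) : ∀ l : List ℕ, (∀ i ∈ l, m i ≠ 0 ∧ d i = 0) →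
    fold m d F l = F
  | [], _ => rfl
  | i :: l, h => by
    have ih := fold_zero F l fun j hj => h j (List.mem_cons_of_mem _ hj)
    obtain ⟨h1, h2⟩ := h i (List.mem_cons_self)
    simp only [fold] at ih ⊢
    rw [List.foldr_cons, ih, h2]
    funext x
    simp [gstep, Real.log_exp, inv_mul_cancel_left₀ h1]

theorem fold_blocks {n : ℕ} {m d m' d' : ℕ → ℝ} : ∀ (K : ℕ) (F : ℝ → ℝ),
    (∀ l < K, (∀ j < n, m' (j + l * (n + 1)) ≠ 0 ∧ d' (j + l * (n + 1)) = 0) ∧
      m' (n + l * (n + 1)) = m l ∧ d' (n + l * (n + 1)) = d l) →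
    fold m' d' F (List.range (K * (n + 1))) = fold m d F (List.range K)
  | 0, F, _ => by simp [fold]
  | K + 1, F, h => by
    obtain ⟨h0, h1, h2⟩ := h K K.lt_succ_self
    rw [show (K + 1) * (n + 1) = K * (n + 1) + n + 1 by ring, List.range_succ, List.range_succ,
      List.range_add]
    simp only [fold, List.foldr_append, List.foldr_cons, List.foldr_nil]
    rw [show K * (n + 1) + n = n + K * (n + 1) by ring, h1, h2]
    have e := fold_zero (m := m') (d := d') (gstep (m K) (d K) F)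
      ((List.range n).map (K * (n + 1) + ·)) fun i hi => by
        obtain ⟨j, hj, rfl⟩ := List.mem_map.1 hi
        rw [add_comm]
        exact h0 j (List.mem_range.1 hj)
    simp only [fold] at e
    rw [e]
    exact fold_blocks K _ fun l hl => h l (by omega)

theorem sum_blocks (g : ℕ → ℝ) (n : ℕ) : ∀ K : ℕ,
    ∑ i ∈ range (K * (n + 1)), g i = ∑ l ∈ range K, ∑ j ∈ range (n + 1), g (j + l * (n + 1))
  | 0 => by simp
  | K + 1 => by
    rw [Nat.succ_mul, sum_range_add, sum_range_succ _ K, sum_blocks g n K]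
    congr 1
    exact sum_congr rfl fun j _ => by rw [add_comm]

theorem div_block {n j : ℕ} (hj : j < n + 1) (l : ℕ) : (j + l * (n + 1)) / (n + 1) = l := by
  rw [Nat.add_mul_div_right _ _ n.succ_pos, Nat.div_eq_of_lt hj, zero_add]

/-- A path read on the natural numbers, constant after its end. -/
def ext {K : ℕ} (v : Fin (K + 1) → ℝ) (i : ℕ) : ℝ := v ⟨min i K, by omega⟩

theorem ext_val {K : ℕ} (v : Fin (K + 1) → ℝ) (i : Fin (K + 1)) : ext v i = v i :=
  congrArg v (Fin.ext (min_eq_left i.is_le))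

theorem ext_mono {K : ℕ} {v : Fin (K + 1) → ℝ} (hv : Monotone v) : Monotone (ext v) :=
  fun _ _ h => hv (Fin.mk_le_mk.2 (min_le_min_right _ h))

variable {K n : ℕ}

theorem refine_val (q : Fin (K + 1) → ℝ) (i : Fin (n * (K + 1) + K + 1)) :
    refine n q i = ext q ((i : ℕ) / (n + 1)) := by
  have h : (i : ℕ) / (n + 1) < K + 1 :=
    (Nat.div_lt_iff_lt_mul (Nat.add_one_pos n)).2 (i.isLt.trans_eq (by ring))
  exact congrArg q (Fin.ext (min_eq_left (by omega)).symm)

theorem refine_zero (q : Fin (K + 1) → ℝ) : refine n q 0 = q 0 := by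
  rw [refine_val, ← ext_val q 0]; simp

theorem refine_last (q : Fin (K + 1) → ℝ) :
    refine n q (Fin.last _) = q (Fin.last K) := by
  rw [refine_val, ← ext_val q (Fin.last K), Fin.val_last, Fin.val_last,
    show n * (K + 1) + K = n + K * (n + 1) by ring, div_block n.lt_succ_self]

theorem refine_mono {q : Fin (K + 1) → ℝ} (hq : Monotone q) : Monotone (refine n q) :=
  fun _ _ h => hq (Fin.mk_le_mk.2 (Nat.div_le_div_right h))

theorem along_refine (F : ℝ → ℝ) (q : Fin (K + 1) → ℝ) : along F (refine n q) = along F q := by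
  have e1 : ∀ i : Fin (n * (K + 1) + K), refine n q i.succ - refine n q i.castSucc
      = ext q (((i : ℕ) + 1) / (n + 1)) - ext q ((i : ℕ) / (n + 1)) := fun i => by
    simp [refine_val]
  have e2 : ∀ i : Fin K, q i.succ - q i.castSucc = ext q ((i : ℕ) + 1) - ext q i := fun i => by
    rw [← ext_val q i.succ, ← ext_val q i.castSucc]; simp
  simp only [along, e1, e2, refine_zero]
  rw [grec_eq_fold (n * (K + 1) + K) (fun i => ((i : ℕ) + 1 : ℝ) / (((n * (K + 1) + K : ℕ) : ℝ) + 1))
      (fun i => ext q ((i + 1) / (n + 1)) - ext q (i / (n + 1))),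
    grec_eq_fold K (fun i => ((i : ℕ) + 1 : ℝ) / ((K : ℝ) + 1)) (fun i => ext q (i + 1) - ext q i),
    show n * (K + 1) + K = K * (n + 1) + n by ring, List.range_add]
  have z := fold_zero (m := fun i : ℕ => ((i : ℕ) + 1 : ℝ) / (((K * (n + 1) + n : ℕ) : ℝ) + 1))
    (d := fun i => ext q ((i + 1) / (n + 1)) - ext q (i / (n + 1))) F
    ((List.range n).map (K * (n + 1) + ·)) fun i hi => by
      obtain ⟨j, hj, rfl⟩ := List.mem_map.1 hi
      have hj' := List.mem_range.1 hj
      refine ⟨by positivity, ?_⟩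
      rw [show K * (n + 1) + j + 1 = (j + 1) + K * (n + 1) by ring, div_block (by omega),
        show K * (n + 1) + j = j + K * (n + 1) by ring, div_block (by omega), sub_self]
  simp only [fold] at z ⊢
  rw [List.foldr_append, z]
  refine congrArg (fun G : ℝ → ℝ => ∫ z, G (√(q 0) * z) ∂gaussianReal 0 1) ?_
  refine fold_blocks K F fun l _ => ⟨fun j hj => ⟨by positivity, ?_⟩, ?_, ?_⟩
  · rw [show j + l * (n + 1) + 1 = (j + 1) + l * (n + 1) by ring, div_block (by omega),
      div_block (by omega), sub_self]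
  · push_cast
    field_simp
    ring
  · rw [show n + l * (n + 1) + 1 = 0 + (l + 1) * (n + 1) by ring, div_block n.succ_pos,
      div_block n.lt_succ_self]

theorem psiI_along (p : Fin (K + 1) → ℝ) :
    Casc.psiI p = along (fun x => Real.log (Real.cosh x)) p - p (Fin.last K) / 2 := by
  rw [along_eq]; rfl

theorem psiI_refine (p : Fin (K + 1) → ℝ) : Casc.psiI (refine n p) = Casc.psiI p := by
  rw [psiI_along, psiI_along, along_refine, refine_last]

theorem psiF_refine (f : ℝ → ℝ) (q : Fin (K + 1) → ℝ) :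
    Casc.psiF f (refine n q) = Casc.psiF f q := by
  rw [← along_eq, ← along_eq, along_refine]

theorem refine_mem {q : Fin (K + 1) → ℝ} (hq : q ∈ Casc.pathsQ K) :
    refine n q ∈ Casc.pathsQ (n * (K + 1) + K) :=
  ⟨refine_mono hq.1, by rw [refine_zero]; exact hq.2.1, by rw [refine_last]; exact hq.2.2⟩

/-- Lowering an overlap path a little absorbs the loss of a coarser spin path. -/
theorem shift_sum {c Q : ℕ → ℝ} {θ : ℝ} {J : ℕ} (hJK : J ≤ K) (hc : Monotone c) (hc0 : 0 ≤ c 0)
    (hcJ : ∀ l, J ≤ l → c l = c J) (hQ : Monotone Q) (hQ0 : 0 ≤ Q 0) (h0 : 0 ≤ θ)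
    (hJ : 1 ≤ θ * ((K : ℝ) - J)) :
    ∑ l ∈ range K, c (l + 1) * ((1 - θ) * Q l) ≤ ∑ l ∈ range K, c l * Q l := by
  have hQn : ∀ l, 0 ≤ Q l := fun l => hQ0.trans (hQ (Nat.zero_le l))
  have hcn : ∀ l, 0 ≤ c l := fun l => hc0.trans (hc (Nat.zero_le l))
  have hinc : ∀ l, (1 - θ) * ((c (l + 1) - c l) * Q l) ≤ (c (l + 1) - c l) * Q J := fun l => by
    rcases le_or_gt J l with h | h
    · simp [hcJ l h, hcJ (l + 1) (by omega)]
    · have hd : 0 ≤ c (l + 1) - c l := sub_nonneg.2 (hc l.le_succ)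
      nlinarith [mul_le_mul_of_nonneg_left (hQ h.le) hd, mul_nonneg h0 (mul_nonneg hd (hQn l))]
  have h1 := sum_le_sum (s := range K) fun l _ => hinc l
  rw [← sum_mul, sum_range_sub, ← mul_sum] at h1
  have h2 : ((K : ℝ) - J) * (c J * Q J) ≤ ∑ l ∈ range K, c l * Q l := by
    rw [← sum_range_add_sum_Ico _ hJK]
    refine le_add_of_nonneg_of_le (sum_nonneg fun l _ => mul_nonneg (hcn l) (hQn l)) ?_
    calc ((K : ℝ) - J) * (c J * Q J) = ∑ _l ∈ Ico J K, c J * Q J := by
          rw [sum_const, Nat.card_Ico, nsmul_eq_mul, Nat.cast_sub hJK]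
      _ ≤ _ := sum_le_sum fun l hl => by
          rw [hcJ l (mem_Ico.1 hl).1]
          exact mul_le_mul_of_nonneg_left (hQ (mem_Ico.1 hl).1) (hcn J)
  rw [hcJ K hJK] at h1
  have h3 : (c J - c 0) * Q J ≤ θ * (((K : ℝ) - J) * (c J * Q J)) := by
    nlinarith [mul_le_mul_of_nonneg_right hJ (mul_nonneg (hcn J) (hQn J)), mul_nonneg hc0 (hQn J)]
  have h4 := mul_le_mul_of_nonneg_left h2 h0
  have e : ∑ l ∈ range K, c (l + 1) * ((1 - θ) * Q l)
      = (1 - θ) * ∑ l ∈ range K, (c (l + 1) - c l) * Q l + (1 - θ) * ∑ l ∈ range K, c l * Q l := by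
    rw [mul_sum, mul_sum, ← sum_add_distrib]
    exact sum_congr rfl fun l _ => by ring
  rw [e]
  linarith

/-- A bound over the spin paths of one grid gives a bound over those of every finer grid. -/
theorem refine_bound {q : Fin (K + 1) → ℝ} (hq : q ∈ Casc.pathsQ K) {θ T : ℝ} (h0 : 0 ≤ θ)
    (h1 : θ ≤ 1) {J : ℕ} (hJ1 : 1 ≤ J) (hJK : J ≤ K) (hJθ : 1 ≤ θ * ((K : ℝ) - J))
    (hT : ∀ p : Fin (K + 1) → ℝ, Monotone p → 0 ≤ p 0 →
      Casc.psiI p + Casc.pi0 K / 2 * ∑ l, p l * q l ≤ T)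
    (p : Fin (n * (K + 1) + K + 1) → ℝ) :
    Monotone p → 0 ≤ p 0 → Casc.psiI p + Casc.pi0 (n * (K + 1) + K) / 2 * ∑ r, p r * refine n (mixQ θ q) r
      ≤ T + (((K + 1 : ℕ) : ℝ) / J - 1) * Real.log 2 := by
  have hN : J * (n + 1) + 1 ≤ n * (K + 1) + K + 1 := by
    have := Nat.mul_le_mul_right (n + 1) hJK
    linarith
  revert p
  set N := n * (K + 1) + K with hNd
  intro p hp hp0
  set b : Fin (N + 1) := ⟨J * (n + 1), by omega⟩
  set X := p b with hX
  set p2 : Fin (N + 1) → ℝ := fun r => min (p r) X with hp2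
  have hX0 : 0 ≤ X := hp0.trans (hp (Fin.zero_le _))
  have hq' : refine n (mixQ θ q) ∈ Casc.pathsQ N := refine_mem (Formula.mixQ_mem h0 h1 hq)
  have hpath : p ∈ Formula.Path (N + 1) := Formula.mem_path_iff.2 ⟨hp, hp0⟩
  -- the cut
  have hcut : Casc.psiI p ≤ Casc.psiI p2 + (((N + 1 : ℕ) : ℝ) / (J * (n + 1) + 1 : ℕ) - 1) * Real.log 2
      - ((N + 1 : ℕ) : ℝ)⁻¹ / 2 * ∑ r, (p r - p2 r) := by
    rw [Formula.psiI_eq, Formula.psiI_eq]
    exact Formula.psi_cut hpath (J := J * (n + 1) + 1) (by omega) hN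
  have hcost : ((N + 1 : ℕ) : ℝ) / (J * (n + 1) + 1 : ℕ) ≤ ((K + 1 : ℕ) : ℝ) / J := by
    have hJ' : (0 : ℝ) < J := by exact_mod_cast hJ1
    rw [div_le_div_iff₀ (by positivity) hJ']
    simp only [N]
    push_cast
    nlinarith
  have hp2q : ∑ r, p r * refine n (mixQ θ q) r
      ≤ ∑ r, (p r - p2 r) + ∑ r, p2 r * refine n (mixQ θ q) r := by
    rw [← sum_add_distrib]
    refine sum_le_sum fun r _ => ?_
    have hle : refine n (mixQ θ q) r ≤ 1 := hq'.2.2 ▸ hq'.1 (Fin.le_last r)
    nlinarith [mul_le_mul_of_nonneg_left hle (sub_nonneg.2 (min_le_left (p r) X))]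
  -- the coarse spin path
  set c : ℕ → ℝ := fun l => ext p (min l J * (n + 1)) with hc
  have hcm : Monotone c := fun _ _ h => ext_mono hp (Nat.mul_le_mul_right _ (min_le_min_right _ h))
  have hcJ : c J = X := by
    simp only [hc, min_self]
    exact ext_val p b
  have hc0 : 0 ≤ c 0 := hp0.trans (hp (Fin.zero_le _))
  set p1 : Fin (K + 1) → ℝ := fun l => c l with hp1
  have hp1m : Monotone p1 := fun _ _ h => hcm h
  have hp1n : 0 ≤ p1 0 := hc0
  have hlow : refine n p1 ≤ p2 := fun r => by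
    refine le_min ?_ ?_
    · rw [← ext_val p r]
      exact ext_mono hp ((Nat.mul_le_mul_right _ (min_le_left _ _)).trans (Nat.div_mul_le_self _ _))
    · rw [← hcJ]
      exact ext_mono hp (Nat.mul_le_mul_right _ ((min_le_right _ _).trans (min_self J).ge))
  have hpsi : Casc.psiI p2 ≤ Casc.psiI p1 := by
    rw [← psiI_refine (n := n) p1, Formula.psiI_eq, Formula.psiI_eq]
    exact Formula.psi_anti
      (Formula.mem_path_iff.2 ⟨fun _ _ h => min_le_min_right _ (hp h), le_min hp0 hX0⟩)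
      (Formula.mem_path_iff.2 ⟨refine_mono hp1m, (refine_zero p1).symm ▸ hp1n⟩) hlow
  -- the pairing
  set Q := ext q with hQ
  set R := ext (mixQ θ q) with hR
  have hRl : ∀ l < K, R l = (1 - θ) * Q l := fun l hl => by
    simp [hR, hQ, ext, mixQ, Fin.ext_iff, show min l K = l by omega, hl.ne]
  have hRK : R K = 1 := by
    have e : q ⟨K, by omega⟩ = 1 := hq.2.2
    simp only [hR, ext, mixQ, Fin.ext_iff, Fin.val_last, min_self, if_true]
    rw [e]; ring
  have hRn : ∀ l, 0 ≤ R l := fun l =>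
    ((Formula.mixQ_mem h0 h1 hq).2.1).trans ((Formula.mixQ_mem h0 h1 hq).1 (Fin.zero_le _))
  have hblock : ∀ l ≤ K, ∀ j < n + 1, min (ext p (j + l * (n + 1))) X ≤ c (min (l + 1) K) := by
    intro l hl j hj
    rcases le_or_gt J (min (l + 1) K) with h | h
    · refine (min_le_right _ _).trans_eq ?_
      rw [← hcJ]; simp [hc, min_eq_right h]
    · refine (min_le_left _ _).trans (ext_mono hp ?_)
      rw [min_eq_left h.le, show min (l + 1) K = l + 1 by omega]
      linarith
  have hpair : ∑ r, p2 r * refine n (mixQ θ q) r ≤ ((n : ℝ) + 1) * ∑ l, p1 l * q l := by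
    calc ∑ r, p2 r * refine n (mixQ θ q) r
        = ∑ i ∈ range (N + 1), min (ext p i) X * R (i / (n + 1)) := by
          rw [← Fin.sum_univ_eq_sum_range]
          exact sum_congr rfl fun r _ => by rw [ext_val, refine_val]
      _ = ∑ l ∈ range (K + 1), ∑ j ∈ range (n + 1), min (ext p (j + l * (n + 1))) X * R l := by
          rw [show N + 1 = (K + 1) * (n + 1) by simp only [N]; ring, sum_blocks]
          exact sum_congr rfl fun l _ => sum_congr rfl fun j hj => by rw [div_block (mem_range.1 hj)]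
      _ ≤ ∑ l ∈ range (K + 1), ((n : ℝ) + 1) * (c (min (l + 1) K) * R l) := by
          refine sum_le_sum fun l hl => (sum_le_card_nsmul _ _ _ fun j hj =>
            mul_le_mul_of_nonneg_right (hblock l (by have := mem_range.1 hl; omega) j (mem_range.1 hj))
              (hRn l)).trans_eq ?_
          simp
      _ ≤ ((n : ℝ) + 1) * (∑ l ∈ range K, c l * Q l + c K * Q K) := by
          rw [← mul_sum, sum_range_succ, min_eq_right K.le_succ, hRK]
          refine mul_le_mul_of_nonneg_left (add_le_add ?_ (le_of_eq ?_)) (by positivity)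
          · refine le_of_eq_of_le (sum_congr rfl fun l hl => ?_)
              (shift_sum hJK hcm hc0 (fun l hl => by simp [hc, min_eq_right hl]) (ext_mono hq.1)
                hq.2.1 h0 hJθ)
            rw [min_eq_left (show l + 1 ≤ K from mem_range.1 hl), hRl l (mem_range.1 hl)]
          · simp [hQ, ext, ← hq.2.2, Fin.last]
      _ = _ := by
          rw [← sum_range_succ, ← Fin.sum_univ_eq_sum_range]
          exact congrArg _ (sum_congr rfl fun l _ => by rw [hQ, ext_val])
  have hγ : Casc.pi0 N / 2 * ((n : ℝ) + 1) = Casc.pi0 K / 2 := by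
    simp only [Casc.pi0, N]
    push_cast
    field_simp
    ring
  have hγN : ((N + 1 : ℕ) : ℝ)⁻¹ / 2 = Casc.pi0 N / 2 := by
    simp only [Casc.pi0]; push_cast; rw [one_div]
  have hγ0 : 0 ≤ Casc.pi0 N / 2 := by unfold Casc.pi0; positivity
  have h5 := mul_le_mul_of_nonneg_left hp2q hγ0
  have h6 := mul_le_mul_of_nonneg_left hpair hγ0
  rw [mul_add (Casc.pi0 N / 2)] at h5
  rw [← mul_assoc, hγ] at h6
  rw [hγN] at hcut
  have h7 := hT p1 hp1m hp1n
  have h8 := mul_le_mul_of_nonneg_right (sub_le_sub_right hcost 1) (Real.log_nonneg one_le_two)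
  linarith

theorem infSup_eq {α : ℝ} (hα : 0 ≤ α) {f : ℝ → ℝ} (hf : Measurable f) {B : ℝ}
    (hB : ∀ x, |f x| ≤ B) {ℓ : ℝ}
    (h : Tendsto (fun K => value K α f) atTop (𝓝 (ℓ : EReal))) : infSup α f = (ℓ : EReal) := by
  refine le_antisymm ?_ (le_iInf fun K => le_iInf₂ fun q hq => ?_)
  · refine EReal.le_of_forall_lt_iff_le.1 fun c hc => ?_
    set e := (c - ℓ) / 5 with he
    have he0 : 0 < e := by have := EReal.coe_lt_coe_iff.1 hc; linarith
    obtain ⟨B', hBB, happ⟩ := Formula.exists_pot hf hB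
    obtain ⟨P, hPB, hPi⟩ := happ (e / ((α + 1) * Real.exp (3 * B'))) (by positivity)
    have hPm : Measurable P.f :=
      (continuous_iff_continuousAt.2 fun x => (P.d1 x).continuousAt).measurable
    set D := Real.exp (3 * B') * ∫ x, |f x - P.f x| ∂gm
    have hD : α * D ≤ e := by
      have hI : ∫ x, |f x - P.f x| ∂gm = ∫ x, |P.f x - f x| ∂gm := by simp only [abs_sub_comm]
      rw [le_div_iff₀ (by positivity)] at hPi
      simp only [D, hI]
      nlinarith [mul_nonneg (Real.exp_pos (3 * B')).le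
        (integral_nonneg (μ := gm) fun x => abs_nonneg (P.f x - f x))]
    set C := α * (3 * (Real.exp (5 * P.bF) * P.b1)) with hC
    have hC0 : 0 ≤ C := by
      have := (abs_nonneg _).trans (P.h1 0)
      positivity
    set s := min 1 (e / (C + 1)) with hs
    have hs0 : 0 < s := lt_min one_pos (by positivity)
    have hCs : C * s ≤ e := by
      have := (le_div_iff₀ (by positivity)).1 (min_le_right 1 (e / (C + 1)))
      rw [← hs] at this
      nlinarith
    set θ := s ^ 2
    have hθ1 : θ ≤ 1 := pow_le_one₀ hs0.le (min_le_left _ _)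
    have hθs : √θ = s := Real.sqrt_sq hs0.le
    set j := ⌈1 / θ⌉₊ + 1
    have hj : 1 ≤ θ * (j : ℝ) := by
      have h' : 1 / θ ≤ (j : ℝ) := (Nat.le_ceil _).trans (by simp [j])
      rwa [div_le_iff₀ (by positivity), mul_comm] at h'
    obtain ⟨K, hK, hKj⟩ := (((tendsto_order.1 h).2 ((ℓ + e : ℝ) : EReal)
      (EReal.coe_lt_coe_iff.2 (by linarith))).and
      (eventually_ge_atTop (j + 1 + ⌈((j : ℝ) + 1) * Real.log 2 / e⌉₊))).exists
    obtain ⟨k, rfl⟩ : ∃ k, K = k + 1 := ⟨K - 1, by omega⟩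
    simp only [value, iInf_lt_iff] at hK
    obtain ⟨q, hq, hlt⟩ := hK
    set T := ℓ + e - α * Casc.psiF f q
    have hT : ∀ p : Fin (k + 1 + 1) → ℝ, Monotone p → 0 ≤ p 0 →
        Casc.psiI p + Casc.pi0 (k + 1) / 2 * ∑ l, p l * q l ≤ T := fun p hp hp0 => by
      have := EReal.coe_le_coe_iff.1 ((le_iSup₂_of_le
        (f := fun p _ => ((functional α f p q : ℝ) : EReal)) p ⟨hp, hp0⟩ le_rfl).trans hlt.le)
      rw [functional_eq, Casc.pfun] at this
      linarith
    set J := k + 1 - j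
    have hJ1 : 1 ≤ J := by omega
    have hJr : (J : ℝ) = ((k + 1 : ℕ) : ℝ) - j := Nat.cast_sub (by omega)
    have hcostJ : (((k + 1 + 1 : ℕ) : ℝ) / J - 1) * Real.log 2 ≤ e := by
      have hJ0 : (0 : ℝ) < J := by exact_mod_cast hJ1
      have h' : ((j : ℝ) + 1) * Real.log 2 / e ≤ J :=
        (Nat.le_ceil _).trans (by exact_mod_cast (by omega : ⌈((j : ℝ) + 1) * Real.log 2 / e⌉₊ ≤ J))
      rw [div_le_iff₀ he0] at h'
      rw [div_sub_one hJ0.ne', div_mul_eq_mul_div, div_le_iff₀ hJ0]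
      push_cast at hJr ⊢
      rw [hJr] at h' ⊢
      ring_nf at h' ⊢
      linarith
    have hm := Formula.mixQ_mem (sq_nonneg s) hθ1 hq
    refine iInf_le_of_le (k + 1) (iInf₂_le_of_le (mixQ θ q) hm (iSup_le fun n => iSup₂_le
      fun p hp => EReal.coe_le_coe_iff.2 ?_))
    rw [functional_eq, Casc.pfun, psiF_refine]
    have h1 := refine_bound (n := n) hq (sq_nonneg s) hθ1 hJ1 (by omega)
      (by rw [hJr, sub_sub_cancel]; exact hj) hT p hp.1 hp.2
    have hfB : ∀ x, |f x| ≤ B' := fun x => (hB x).trans hBB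
    have h2 := mul_le_mul_of_nonneg_left (le_abs_self _ |>.trans
      (Formula.psiF_sub_le hf hPm hfB hPB hm)) hα
    have h3 := mul_le_mul_of_nonneg_left (neg_le_of_abs_le
      (Formula.psiF_sub_le hf hPm hfB hPB hq)) hα
    have h4 := mul_le_mul_of_nonneg_left (Formula.psiF_mix P hq (sq_nonneg s) hθ1) hα
    rw [hθs] at h4
    simp only [T, hC] at h1 hCs
    linarith [show α * (3 * (Real.exp (5 * P.bF) * P.b1)) * s
      = α * (3 * (Real.exp (5 * P.bF) * P.b1) * s) by ring]
  · refine le_of_tendsto' (h.comp (tendsto_atTop_mono (fun n : ℕ => ?_) tendsto_id)) fun n =>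
      le_iSup_of_le n (iInf₂_le_of_le (refine n q) (refine_mem hq) le_rfl)
    show n ≤ n * (K + 1) + K
    have := Nat.le_mul_of_pos_right n (Nat.add_one_pos K)
    omega

end Vale.Agent.P157.Ising
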