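import Vale.Agent.P157.Ising.Defs

/-!
P157, Ising cube: the variational formula over step paths with any number of steps.
-/

open MeasureTheory ProbabilityTheory

namespace Vale.Agent.P157.Ising

/-- The step path of `q` on the grid `n + 1` times finer: every entry is repeated `n + 1` times. -/
def refine (n : ℕ) {K : ℕ} (q : Fin (K + 1) → ℝ) (i : Fin (n * (K + 1) + K + 1)) : ℝ :=
  q ⟨(i : ℕ) / (n + 1), (Nat.div_lt_iff_lt_mul (Nat.add_one_pos n)).2 (i.isLt.trans_eq (by ring))⟩

/-- The infimum over step overlap paths `q` of the supremum over step spin paths `p` on every grid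
that refines the grid of `q`. -/
noncomputable def infSup (α : ℝ) (f : ℝ → ℝ) : EReal :=
  ⨅ K : ℕ, ⨅ q ∈ {q : Fin (K + 1) → ℝ | Monotone q ∧ 0 ≤ q 0 ∧ q (Fin.last K) = 1},
    ⨆ n : ℕ, ⨆ p ∈ {p : Fin (n * (K + 1) + K + 1) → ℝ | Monotone p ∧ 0 ≤ p 0},
      ((functional α f p (refine n q) : ℝ) : EReal)

end Vale.Agent.P157.Ising
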